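import Mathlib

/-!
Finite pure simplicial complexes, weighted coboundary expansion over the field with two elements.
-/

namespace Vale.Agent.P067

open Finset

variable {n : ℕ}

/-- `F` is the set of `d`-faces of a pure `d`-dimensional complex on the vertex set `Fin n`:
every top face has `d+1` vertices and every vertex lies in a top face. -/
def IsPure (d : ℕ) (F : Finset (Finset (Fin n))) : Prop :=
  (∀ τ ∈ F, τ.card = d + 1) ∧ ∀ v, ∃ τ ∈ F, v ∈ τ

/-- each vertex lies in at most `D` top faces -/
def DegreeLE (D : ℕ) (F : Finset (Finset (Fin n))) : Prop :=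
  ∀ v, (F.filter fun τ => v ∈ τ).card ≤ D

/-- the `i`-faces of the complex spanned by `F`: subsets with `i+1` vertices of a top face -/
def faces (F : Finset (Finset (Fin n))) (i : ℕ) : Finset (Finset (Fin n)) :=
  F.biUnion fun τ => τ.powersetCard (i + 1)

/-- `i`-cochains over the field with two elements -/
abbrev Cochain (F : Finset (Finset (Fin n))) (i : ℕ) : Type :=
  ↥(faces F i) → ZMod 2

/-- the coboundary map -/
def cob (F : Finset (Finset (Fin n))) (i : ℕ) : Cochain F i →ₗ[ZMod 2] Cochain F (i + 1) where
  toFun f τ := ∑ σ : ↥(faces F i), if (σ : Finset (Fin n)) ⊆ (τ : Finset (Fin n)) then f σ else 0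
  map_add' f g := by
    funext τ
    simp only [Pi.add_apply, ← Finset.sum_add_distrib]
    exact Finset.sum_congr rfl fun σ _ => by split_ifs <;> simp
  map_smul' c f := by
    funext τ
    simp only [Pi.smul_apply, smul_eq_mul, RingHom.id_apply, Finset.mul_sum]
    exact Finset.sum_congr rfl fun σ _ => by split_ifs <;> simp

/-- coboundaries; in degree zero these are the constant functions -/
def cobs (F : Finset (Finset (Fin n))) : (i : ℕ) → Submodule (ZMod 2) (Cochain F i)
  | 0 => Submodule.span (ZMod 2) {fun _ => 1}
  | i + 1 => LinearMap.range (cob F i)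

/-- the weight of an `i`-face: choose a uniform top face, then a uniform `i`-face of it -/
noncomputable def weight (d : ℕ) (F : Finset (Finset (Fin n))) (i : ℕ)
    (σ : Finset (Fin n)) : ℝ :=
  ((F.filter fun τ => σ ⊆ τ).card : ℝ) / (((d + 1).choose (i + 1) : ℝ) * (F.card : ℝ))

/-- the weighted norm of a cochain -/
noncomputable def wnorm (d : ℕ) (F : Finset (Finset (Fin n))) (i : ℕ) (f : Cochain F i) : ℝ :=
  ∑ σ : ↥(faces F i), if f σ = 0 then 0 else weight d F i (σ : Finset (Fin n))

/-- coboundary expansion in every degree below the top: the distance of each cochain to the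
coboundaries is at most the norm of its coboundary divided by `ε` -/
def IsCobExpander (d : ℕ) (F : Finset (Finset (Fin n))) (ε : ℝ) : Prop :=
  ∀ i < d, ∀ f : Cochain F i, ∃ a ∈ cobs F i, ε * wnorm d F i (f - a) ≤ wnorm d F (i + 1) (cob F i f)

/-- the dimension of the top cohomology `C^d / B^d` -/
noncomputable def topBetti (d : ℕ) (F : Finset (Finset (Fin n))) : ℕ :=
  Module.finrank (ZMod 2) (Cochain F d ⧸ cobs F d)

end Vale.Agent.P067
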