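import Vale.Agent.P067.Defs

/-!
In a bounded degree coboundary expander the top cohomology has dimension linear in the number
of vertices: a small top cohomology would give a sparse chain homotopy down to degree zero.
-/

namespace Vale.Agent.P067

open Finset

variable {n d D : ℕ} {F : Finset (Finset (Fin n))}

/-- the number of nonzero values -/
def size {ι : Type*} [Fintype ι] (f : ι → ZMod 2) : ℕ := (univ.filter fun x => f x ≠ 0).card

theorem eq_zero_of_size {ι : Type*} [Fintype ι] {f : ι → ZMod 2} (h : size f = 0) : f = 0 := by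
  funext x
  by_contra hx
  have : x ∈ (univ.filter fun x => f x ≠ 0) := by simpa using hx
  rw [Finset.card_eq_zero.mp h] at this
  simp at this

theorem size_one {ι : Type*} [Fintype ι] : size (fun _ : ι => (1 : ZMod 2)) = Fintype.card ι := by
  rw [size, Finset.filter_true_of_mem fun x _ => one_ne_zero, Finset.card_univ]

theorem size_single {ι : Type*} [Fintype ι] [DecidableEq ι] (x : ι) :
    size (Pi.single x (1 : ZMod 2)) ≤ 1 := by
  refine (Finset.card_le_card ?_).trans_eq (Finset.card_singleton x)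
  intro y hy
  by_contra h
  simp [Finset.mem_singleton] at h
  simp [h] at hy

theorem size_sum_le {ι κ : Type*} [Fintype ι] (s : Finset κ) (g : κ → ι → ZMod 2) :
    size (∑ a ∈ s, g a) ≤ ∑ a ∈ s, size (g a) := by
  classical
  refine (Finset.card_le_card ?_).trans Finset.card_biUnion_le
  intro x hx
  simp only [Finset.mem_filter, Finset.mem_univ, true_and, Finset.sum_apply] at hx
  obtain ⟨a, ha, hga⟩ := Finset.exists_ne_zero_of_sum_ne_zero hx
  simp only [Finset.mem_biUnion, Finset.mem_filter, Finset.mem_univ, true_and]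
  exact ⟨a, ha, hga⟩

theorem size_add_le {ι : Type*} [Fintype ι] (f g : ι → ZMod 2) :
    size (f + g) ≤ size f + size g := by
  classical
  refine (Finset.card_le_card ?_).trans (Finset.card_union_le _ _)
  intro x hx
  simp only [Finset.mem_filter, Finset.mem_univ, true_and, Pi.add_apply] at hx
  simp only [Finset.mem_union, Finset.mem_filter, Finset.mem_univ, true_and]
  by_contra h
  push Not at h
  exact hx (by rw [h.1, h.2, add_zero])

/-- a linear map is sparse if it is sparse on basis vectors -/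
theorem size_map_le {ι κ : Type*} [Fintype ι] [DecidableEq ι] [Fintype κ]
    (K : (ι → ZMod 2) →ₗ[ZMod 2] κ → ZMod 2) {W : ℕ}
    (h : ∀ x, size (K (Pi.single x 1)) ≤ W) (f : ι → ZMod 2) : size (K f) ≤ size f * W := by
  have e : f = ∑ x ∈ univ.filter (fun x => f x ≠ 0), Pi.single x (1 : ZMod 2) := by
    funext y
    rw [Finset.sum_apply]
    simp only [Pi.single_apply, Finset.sum_ite_eq, Finset.mem_filter, Finset.mem_univ, true_and]
    split_ifs with hy
    · exact (by
        have h2 : ∀ z : ZMod 2, z ≠ 0 → z = 1 := by decide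
        exact h2 _ hy)
    · exact not_not.mp hy
  conv_lhs => rw [e, map_sum]
  refine (size_sum_le _ _).trans ((Finset.sum_le_card_nsmul _ _ W fun x _ => h x).trans_eq ?_)
  rfl

/-- the linear map with prescribed values on basis vectors -/
theorem exists_linear {ι : Type*} [Fintype ι] [DecidableEq ι] {M : Type*} [AddCommGroup M]
    [Module (ZMod 2) M] (h : ι → M) :
    ∃ K : (ι → ZMod 2) →ₗ[ZMod 2] M, ∀ x, K (Pi.single x 1) = h x :=
  ⟨(Pi.basisFun (ZMod 2) ι).constr (ZMod 2) h, fun x => by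
    rw [← Pi.basisFun_apply, Module.Basis.constr_basis]⟩

theorem linear_ext {ι : Type*} [Fintype ι] [DecidableEq ι] {M : Type*} [AddCommGroup M]
    [Module (ZMod 2) M] {A B : (ι → ZMod 2) →ₗ[ZMod 2] M}
    (h : ∀ x, A (Pi.single x 1) = B (Pi.single x 1)) : A = B :=
  (Pi.basisFun (ZMod 2) ι).ext fun x => by simpa [Pi.basisFun_apply] using h x

theorem mem_faces {i : ℕ} {σ : Finset (Fin n)} :
    σ ∈ faces F i ↔ ∃ T ∈ F, σ ⊆ T ∧ σ.card = i + 1 := by
  simp [faces, Finset.mem_biUnion, Finset.mem_powersetCard]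

theorem face_nonempty {i : ℕ} (σ : ↥(faces F i)) : (σ : Finset (Fin n)).Nonempty := by
  obtain ⟨T, _, _, h⟩ := mem_faces.mp σ.2
  exact Finset.card_pos.mp (by omega)

theorem cob_single {i : ℕ} (σ : ↥(faces F i)) (τ : ↥(faces F (i + 1))) :
    cob F i (Pi.single σ 1) τ
      = if (σ : Finset (Fin n)) ⊆ (τ : Finset (Fin n)) then 1 else 0 := by
  show (∑ ρ : ↥(faces F i), if (ρ : Finset (Fin n)) ⊆ (τ : Finset (Fin n))
    then Pi.single σ 1 ρ else 0) = _
  rw [Finset.sum_eq_single σ (fun ρ _ h => by simp [h]) (fun h => absurd (Finset.mem_univ σ) h)]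
  simp

theorem size_cob_single (hdeg : DegreeLE D F) (hF : IsPure d F) {i : ℕ} (σ : ↥(faces F i)) :
    size (cob F i (Pi.single σ 1)) ≤ D * 2 ^ (d + 1) := by
  classical
  obtain ⟨v, hv⟩ := face_nonempty σ
  calc size (cob F i (Pi.single σ 1))
      ≤ ((F.filter fun T => v ∈ T).biUnion fun T => T.powerset).card := by
        refine Finset.card_le_card_of_injOn (fun τ => (τ : Finset (Fin n))) ?_
          Subtype.val_injective.injOn
        intro τ hτ
        have hsub : (σ : Finset (Fin n)) ⊆ (τ : Finset (Fin n)) := by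
          have h := (Finset.mem_filter.mp (Finset.mem_coe.mp hτ)).2
          by_contra hn
          exact h (by rw [cob_single, if_neg hn])
        obtain ⟨T, hT, hTs, _⟩ := mem_faces.mp τ.2
        simp only [Finset.mem_coe, Finset.mem_biUnion, Finset.mem_filter, Finset.mem_powerset]
        exact ⟨T, ⟨hT, hTs (hsub hv)⟩, hTs⟩
    _ ≤ (F.filter fun T => v ∈ T).card * 2 ^ (d + 1) := by
        refine Finset.card_biUnion_le_card_mul _ _ _ fun T hT => ?_
        rw [Finset.card_powerset, hF.1 T (Finset.mem_filter.mp hT).1]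
    _ ≤ D * 2 ^ (d + 1) := Nat.mul_le_mul_right _ (hdeg v)

theorem cob_cob (i : ℕ) (f : Cochain F i) : cob F (i + 1) (cob F i f) = 0 := by
  classical
  have h : (cob F (i + 1)).comp (cob F i) = 0 := by
    refine linear_ext fun ρ => ?_
    funext τ
    show (∑ σ : ↥(faces F (i + 1)), if (σ : Finset (Fin n)) ⊆ (τ : Finset (Fin n))
      then cob F i (Pi.single ρ 1) σ else 0) = 0
    simp only [cob_single, ← ite_and]
    rw [Finset.sum_boole]
    obtain ⟨T, hT, hTs, hτc⟩ := mem_faces.mp τ.2
    obtain ⟨_, _, _, hρc⟩ := mem_faces.mp ρ.2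
    by_cases hρτ : (ρ : Finset (Fin n)) ⊆ (τ : Finset (Fin n))
    · set S := univ.filter fun σ : ↥(faces F (i + 1)) =>
        (σ : Finset (Fin n)) ⊆ (τ : Finset (Fin n)) ∧ (ρ : Finset (Fin n)) ⊆ (σ : Finset (Fin n))
      have hS : S.card = ((τ : Finset (Fin n)) \ (ρ : Finset (Fin n))).card := by
        symm
        refine Finset.card_bij (fun x hx => ⟨insert x (ρ : Finset (Fin n)), mem_faces.mpr
          ⟨T, hT, ?_, ?_⟩⟩) ?_ ?_ ?_
        · rw [Finset.mem_sdiff] at hx
          exact (Finset.insert_subset hx.1 hρτ).trans hTs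
        · rw [Finset.mem_sdiff] at hx
          rw [Finset.card_insert_of_notMem hx.2, hρc]
        · intro x hx
          rw [Finset.mem_sdiff] at hx
          simp only [S, Finset.mem_filter, Finset.mem_univ, true_and]
          exact ⟨Finset.insert_subset hx.1 hρτ, Finset.subset_insert _ _⟩
        · intro x hx y hy hxy
          rw [Finset.mem_sdiff] at hx hy
          have h1 : x ∈ insert y (ρ : Finset (Fin n)) := by
            have h0 : insert x (ρ : Finset (Fin n)) = insert y (ρ : Finset (Fin n)) :=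
              congrArg Subtype.val hxy
            rw [← h0]; exact Finset.mem_insert_self _ _
          exact (Finset.mem_insert.mp h1).resolve_right hx.2
        · intro σ hσ
          simp only [S, Finset.mem_filter, Finset.mem_univ, true_and] at hσ
          obtain ⟨_, _, _, hσc⟩ := mem_faces.mp σ.2
          obtain ⟨x, hx⟩ := Finset.card_eq_one.mp
            (show ((σ : Finset (Fin n)) \ (ρ : Finset (Fin n))).card = 1 by
              rw [Finset.card_sdiff_of_subset hσ.2, hσc, hρc]; omega)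
          have hxm : x ∈ (σ : Finset (Fin n)) \ (ρ : Finset (Fin n)) := by simp [hx]
          rw [Finset.mem_sdiff] at hxm
          refine ⟨x, Finset.mem_sdiff.mpr ⟨hσ.1 hxm.1, hxm.2⟩, Subtype.ext ?_⟩
          show insert x (ρ : Finset (Fin n)) = σ
          rw [Finset.insert_eq, ← hx, Finset.sdiff_union_of_subset hσ.2]
      rw [hS, Finset.card_sdiff_of_subset hρτ, hτc, hρc,
        show i + 1 + 1 + 1 - (i + 1) = 2 by omega]
      decide
    · rw [Finset.filter_false_of_mem fun σ _ hσ => hρτ (hσ.2.trans hσ.1)]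
      simp
  exact LinearMap.congr_fun h f

theorem cob_zero_one : cob F 0 (fun _ => 1) = 0 := by
  classical
  funext τ
  show (∑ σ : ↥(faces F 0), if (σ : Finset (Fin n)) ⊆ (τ : Finset (Fin n)) then (1 : ZMod 2)
    else 0) = 0
  rw [Finset.sum_boole]
  obtain ⟨T, hT, hTs, hc⟩ := mem_faces.mp τ.2
  have : (univ.filter fun σ : ↥(faces F 0) => (σ : Finset (Fin n)) ⊆ (τ : Finset (Fin n))).card
      = (τ : Finset (Fin n)).card := by
    symm
    refine Finset.card_bij (fun x hx => ⟨{x}, mem_faces.mpr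
      ⟨T, hT, Finset.singleton_subset_iff.mpr (hTs hx), rfl⟩⟩) ?_ ?_ ?_
    · intro x hx
      simp only [Finset.mem_filter, Finset.mem_univ, true_and]
      exact Finset.singleton_subset_iff.mpr hx
    · intro x _ y _ h
      exact Finset.singleton_injective (congrArg Subtype.val h)
    · intro σ hσ
      obtain ⟨_, _, _, hσc⟩ := mem_faces.mp σ.2
      obtain ⟨x, hx⟩ := Finset.card_eq_one.mp hσc
      simp only [Finset.mem_filter, Finset.mem_univ, true_and, hx,
        Finset.singleton_subset_iff] at hσ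
      exact ⟨x, hσ, Subtype.ext hx.symm⟩
  rw [this, hc]
  decide

theorem cob_cobs {i : ℕ} {a : Cochain F i} (ha : a ∈ cobs F i) : cob F i a = 0 := by
  match i, a, ha with
  | 0, a, ha =>
    obtain ⟨c, rfl⟩ := Submodule.mem_span_singleton.mp ha
    rw [map_smul, cob_zero_one, smul_zero]
  | j + 1, a, ha =>
    obtain ⟨b, rfl⟩ := ha
    exact cob_cob j b

theorem card_pos_of_face {i : ℕ} (σ : ↥(faces F i)) : 0 < F.card := by
  obtain ⟨T, hT, _⟩ := mem_faces.mp σ.2
  exact Finset.card_pos.mpr ⟨T, hT⟩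

theorem wnorm_bounds (hdeg : DegreeLE D F) (i : ℕ) (f : Cochain F i) :
    (size f : ℝ) / (((d + 1).choose (i + 1) : ℝ) * F.card) ≤ wnorm d F i f ∧
      wnorm d F i f ≤ D * (size f : ℝ) / (((d + 1).choose (i + 1) : ℝ) * F.card) := by
  classical
  set c : ℝ := ((d + 1).choose (i + 1) : ℝ) * F.card with hc
  have hc0 : 0 ≤ c := by positivity
  have e : wnorm d F i f = ∑ σ ∈ univ.filter (fun σ => f σ ≠ 0),
      weight d F i (σ : Finset (Fin n)) := by
    rw [wnorm, Finset.sum_filter]
    exact Finset.sum_congr rfl fun σ _ => by split_ifs <;> simp_all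
  rw [e]
  constructor
  · have := Finset.card_nsmul_le_sum (univ.filter fun σ => f σ ≠ 0)
      (fun σ : ↥(faces F i) => weight d F i (σ : Finset (Fin n))) (1 / c) (fun σ _ => by
      simp only [weight, ← hc]
      refine div_le_div_of_nonneg_right ?_ hc0
      obtain ⟨T, hT, hTs, _⟩ := mem_faces.mp σ.2
      exact_mod_cast Finset.card_pos.mpr ⟨T, Finset.mem_filter.mpr ⟨hT, hTs⟩⟩)
    rw [nsmul_eq_mul, mul_one_div] at this
    exact this
  · have := Finset.sum_le_card_nsmul (univ.filter fun σ => f σ ≠ 0)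
      (fun σ : ↥(faces F i) => weight d F i (σ : Finset (Fin n))) ((D : ℝ) / c) (fun σ _ => by
      simp only [weight, ← hc]
      refine div_le_div_of_nonneg_right ?_ hc0
      obtain ⟨v, hv⟩ := face_nonempty σ
      exact_mod_cast (Finset.card_le_card fun T hT => by
        simp only [Finset.mem_filter] at hT ⊢
        exact ⟨hT.1, hT.2 hv⟩).trans (hdeg v))
    rw [nsmul_eq_mul] at this
    refine this.trans_eq ?_
    show (size f : ℝ) * ((D : ℝ) / c) = _
    ring

/-- small coboundaries have small fillings -/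
theorem fill {ε : ℝ} (hε : 0 < ε) (hdeg : DegreeLE D F) (hexp : IsCobExpander d F ε) {i : ℕ}
    (hi : i < d) (f : Cochain F i) :
    ∃ a ∈ cobs F i,
      (size (f - a) : ℝ) ≤ (D * 2 ^ (d + 1) / ε) * size (cob F i f) := by
  obtain ⟨a, ha, hle⟩ := hexp i hi f
  refine ⟨a, ha, ?_⟩
  rcases isEmpty_or_nonempty ↥(faces F i) with h | ⟨⟨σ⟩⟩
  · have : size (f - a) = 0 := by simp [size]
    rw [this, Nat.cast_zero]; positivity
  have hF : (0 : ℝ) < F.card := by exact_mod_cast card_pos_of_face σ
  have h1 := (wnorm_bounds (d := d) hdeg i (f - a)).1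
  have h2 := (wnorm_bounds (d := d) hdeg (i + 1) (cob F i f)).2
  have c1 : (0 : ℝ) < ((d + 1).choose (i + 1) : ℝ) := by
    exact_mod_cast Nat.choose_pos (by omega)
  have c2 : (1 : ℝ) ≤ ((d + 1).choose (i + 1 + 1) : ℝ) := by
    exact_mod_cast Nat.choose_pos (by omega)
  have c3 : (((d + 1).choose (i + 1) : ℝ)) ≤ 2 ^ (d + 1) := by
    exact_mod_cast Nat.choose_le_two_pow (d + 1) (i + 1)
  have h3 : wnorm d F (i + 1) (cob F i f) ≤ D * (size (cob F i f) : ℝ) / F.card := by
    refine h2.trans (div_le_div_of_nonneg_left (by positivity) hF ?_)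
    nlinarith
  have h4 : ε * ((size (f - a) : ℝ) / (((d + 1).choose (i + 1) : ℝ) * F.card))
      ≤ D * (size (cob F i f) : ℝ) / F.card :=
    ((mul_le_mul_of_nonneg_left h1 hε.le).trans hle).trans h3
  rw [← mul_div_assoc, div_le_div_iff₀ (by positivity) hF] at h4
  rw [div_mul_eq_mul_div, le_div_iff₀ hε]
  have h5 : ε * (size (f - a) : ℝ) ≤ D * (size (cob F i f) : ℝ) * ((d + 1).choose (i + 1) : ℝ) :=
    le_of_mul_le_mul_right (by linarith) hF
  calc (size (f - a) : ℝ) * ε
      ≤ D * (size (cob F i f) : ℝ) * ((d + 1).choose (i + 1) : ℝ) := by linarith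
    _ ≤ D * (size (cob F i f) : ℝ) * 2 ^ (d + 1) := mul_le_mul_of_nonneg_left c3 (by positivity)
    _ = D * 2 ^ (d + 1) * (size (cob F i f) : ℝ) := by ring

/-- cocycles are coboundaries below the top -/
theorem mem_cobs_of_cob_eq_zero {ε : ℝ} (hε : 0 < ε) (hdeg : DegreeLE D F)
    (hexp : IsCobExpander d F ε) {i : ℕ} (hi : i < d) {f : Cochain F i} (hf : cob F i f = 0) :
    f ∈ cobs F i := by
  obtain ⟨a, ha, h⟩ := fill hε hdeg hexp hi f
  rw [hf, show size (0 : Cochain F (i + 1)) = 0 by simp [size], Nat.cast_zero, mul_zero] at h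
  have h0 : size (f - a) = 0 := by exact_mod_cast le_antisymm h (Nat.cast_nonneg _)
  rwa [sub_eq_zero.mp (eq_zero_of_size h0)]

/-- a small set of top faces spanning the top cohomology -/
theorem exists_small_span (d : ℕ) (F : Finset (Finset (Fin n))) :
    ∃ s : Cochain F d →ₗ[ZMod 2] Cochain F d,
      (∀ σ, size (s (Pi.single σ 1)) ≤ topBetti d F) ∧ (∀ g ∈ cobs F d, s g = 0) ∧
        ∀ g, g - s g ∈ cobs F d := by
  classical
  set q := (cobs F d).mkQ
  set e : ↥(faces F d) → Cochain F d ⧸ cobs F d := fun σ => q (Pi.single σ 1)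
  have hspan : Submodule.span (ZMod 2) (Set.range e) = ⊤ := by
    have : Set.range e = q '' Set.range (Pi.basisFun (ZMod 2) ↥(faces F d)) := by
      rw [← Set.range_comp]; exact congrArg Set.range (funext fun σ => by simp [e])
    rw [this, Submodule.span_image, (Pi.basisFun _ _).span_eq, Submodule.map_top]
    exact Submodule.range_mkQ _
  obtain ⟨t, hts, htspan, hind⟩ :=
    exists_linearIndependent (ZMod 2) (Set.range e)
  rw [hspan] at htspan
  let b : Module.Basis t (ZMod 2) (Cochain F d ⧸ cobs F d) :=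
    Module.Basis.mk hind (by simp [htspan])
  have hb : ∀ x : t, ∃ σ, e σ = b x := fun x => by
    obtain ⟨σ, hσ⟩ := hts x.2
    exact ⟨σ, by rw [hσ, Module.Basis.mk_apply]⟩
  choose pick hpick using hb
  let L : (Cochain F d ⧸ cobs F d) →ₗ[ZMod 2] Cochain F d :=
    b.constr (ZMod 2) fun x => Pi.single (pick x) 1
  have hL : q.comp L = LinearMap.id := b.ext fun x => by
    simp only [LinearMap.comp_apply, L, Module.Basis.constr_basis, LinearMap.id_apply]
    exact hpick x
  refine ⟨L.comp q, fun σ => ?_, fun g hg => ?_, fun g => ?_⟩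
  · have : Fintype t := Fintype.ofFinite t
    have hcard : topBetti d F = Fintype.card t := Module.finrank_eq_card_basis b
    rw [hcard, LinearMap.comp_apply, ← b.sum_repr (q (Pi.single σ 1)), map_sum]
    refine (size_sum_le _ _).trans ?_
    refine (Finset.sum_le_card_nsmul _ _ 1 fun x _ => ?_).trans_eq (by simp)
    rw [map_smul]
    have h2 : ∀ z : ZMod 2, z = 0 ∨ z = 1 := by decide
    rcases h2 (b.repr (q (Pi.single σ 1)) x) with h | h <;> rw [h]
    · simp [size]
    · rw [one_smul]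
      simp only [L, Module.Basis.constr_basis]
      exact size_single _
  · simp [q, (Submodule.Quotient.mk_eq_zero _).mpr hg]
  · rw [← Submodule.Quotient.mk_eq_zero, Submodule.Quotient.mk_sub, sub_eq_zero]
    exact (LinearMap.congr_fun hL (q g)).symm

/-- the sparse chain homotopy at the level `i` -/
def Homotopy (F : Finset (Finset (Fin n))) (i W : ℕ) : Prop :=
  ∃ K : Cochain F (i + 1) →ₗ[ZMod 2] Cochain F i,
    (∀ τ, size (K (Pi.single τ 1)) ≤ W) ∧ ∀ f, cob F i (K (cob F i f)) = cob F i f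

variable {ε : ℝ}

theorem homotopy_top (hε : 0 < ε) (hdeg : DegreeLE D F) {j : ℕ}
    (hexp : IsCobExpander (j + 1) F ε) {C : ℕ} (hC : (D : ℝ) * 2 ^ (j + 1 + 1) / ε ≤ C) :
    Homotopy F j (C * (1 + topBetti (j + 1) F)) := by
  classical
  obtain ⟨s, hs, hs0, hsub⟩ := exists_small_span (j + 1) F
  have hex : ∀ τ, ∃ h : Cochain F j, cob F j h = Pi.single τ 1 - s (Pi.single τ 1) ∧
      size h ≤ C * (1 + topBetti (j + 1) F) := fun τ => by
    obtain ⟨f, hf⟩ := hsub (Pi.single τ 1)
    obtain ⟨a, ha, hle⟩ := fill hε hdeg hexp (Nat.lt_succ_self j) f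
    refine ⟨f - a, by rw [map_sub, cob_cobs ha, sub_zero, hf], ?_⟩
    have hsz : size (cob F j f) ≤ 1 + topBetti (j + 1) F := by
      rw [hf, sub_eq_add_neg, ZModModule.neg_eq_self]
      exact (size_add_le _ _).trans (Nat.add_le_add (size_single τ) (hs τ))
    have : (size (f - a) : ℝ) ≤ (C : ℝ) * (1 + topBetti (j + 1) F : ℕ) :=
      hle.trans (mul_le_mul hC (by exact_mod_cast hsz) (Nat.cast_nonneg _) (Nat.cast_nonneg _))
    exact_mod_cast this
  choose h h1 h2 using hex
  obtain ⟨K, hK⟩ := exists_linear h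
  refine ⟨K, fun τ => by rw [hK]; exact h2 τ, fun f => ?_⟩
  have e : (cob F j).comp K = LinearMap.id - s := linear_ext fun τ => by
    simp [hK, h1]
  have := LinearMap.congr_fun e (cob F j f)
  simp only [LinearMap.comp_apply, LinearMap.sub_apply, LinearMap.id_apply] at this
  rw [this, hs0 _ ⟨f, rfl⟩, sub_zero]

/-- the projection to cocycles given by a homotopy -/
theorem exists_proj (hdeg : DegreeLE D F) (hF : IsPure d F) {i W : ℕ} (H : Homotopy F i W) :
    ∃ P : Cochain F i →ₗ[ZMod 2] Cochain F i,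
      (∀ σ, size (P (Pi.single σ 1)) ≤ 1 + D * 2 ^ (d + 1) * W) ∧
      (∀ f, cob F i (P f) = 0) ∧ ∀ f, cob F i f = 0 → P f = f := by
  obtain ⟨K, hK, hKc⟩ := H
  refine ⟨LinearMap.id - K.comp (cob F i), fun σ => ?_, fun f => ?_, fun f hf => ?_⟩
  · simp only [LinearMap.sub_apply, LinearMap.id_apply, LinearMap.comp_apply]
    rw [sub_eq_add_neg, ZModModule.neg_eq_self]
    exact (size_add_le _ _).trans (Nat.add_le_add (size_single σ)
      ((size_map_le K hK _).trans (Nat.mul_le_mul_right _ (size_cob_single hdeg hF σ))))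
  · simp [map_sub, hKc]
  · simp [hf]

theorem homotopy_step (hε : 0 < ε) (hdeg : DegreeLE D F) (hF : IsPure d F)
    (hexp : IsCobExpander d F ε) {C : ℕ} (hC : (D : ℝ) * 2 ^ (d + 1) / ε ≤ C) {i W : ℕ}
    (hi : i + 1 < d) (H : Homotopy F (i + 1) W) :
    Homotopy F i (C * (1 + D * 2 ^ (d + 1) * W)) := by
  classical
  obtain ⟨P, hP, hPc, hPid⟩ := exists_proj hdeg hF H
  have hex : ∀ σ, ∃ h : Cochain F i, cob F i h = P (Pi.single σ 1) ∧
      size h ≤ C * (1 + D * 2 ^ (d + 1) * W) := fun σ => by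
    obtain ⟨f, hf⟩ := mem_cobs_of_cob_eq_zero hε hdeg hexp hi (hPc (Pi.single σ 1))
    obtain ⟨a, ha, hle⟩ := fill hε hdeg hexp (show i < d by omega) f
    refine ⟨f - a, by rw [map_sub, cob_cobs ha, sub_zero, hf], ?_⟩
    have hsz : size (cob F i f) ≤ 1 + D * 2 ^ (d + 1) * W := by rw [hf]; exact hP σ
    have : (size (f - a) : ℝ) ≤ (C : ℝ) * (1 + D * 2 ^ (d + 1) * W : ℕ) :=
      hle.trans (mul_le_mul hC (by exact_mod_cast hsz) (Nat.cast_nonneg _) (Nat.cast_nonneg _))
    exact_mod_cast this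
  choose h h1 h2 using hex
  obtain ⟨K, hK⟩ := exists_linear h
  refine ⟨K, fun σ => by rw [hK]; exact h2 σ, fun f => ?_⟩
  have e : (cob F i).comp K = P := linear_ext fun σ => by simp [hK, h1]
  rw [← LinearMap.comp_apply, e, hPid _ (cob_cob i f)]

theorem card_faces_zero (hF : IsPure d F) : n ≤ Fintype.card ↥(faces F 0) := by
  have := Fintype.card_le_of_injective
    (fun v : Fin n => (⟨{v}, by
      obtain ⟨T, hT, hv⟩ := hF.2 v
      exact mem_faces.mpr ⟨T, hT, Finset.singleton_subset_iff.mpr hv, rfl⟩⟩ : ↥(faces F 0)))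
    (fun a b h => Finset.singleton_injective (congrArg Subtype.val h))
  simpa using this

theorem vertices_le (hε : 0 < ε) (hdeg : DegreeLE D F) (hF : IsPure d F)
    (hexp : IsCobExpander d F ε) (hd : 0 < d) {W : ℕ} (H : Homotopy F 0 W) :
    n ≤ 1 + D * 2 ^ (d + 1) * W := by
  classical
  obtain ⟨P, hP, hPc, hPid⟩ := exists_proj hdeg hF H
  rcases Nat.eq_zero_or_pos n with rfl | hn
  · exact Nat.zero_le _
  by_contra hlt
  push Not at hlt
  have hcard := card_faces_zero hF
  have hz : ∀ σ, P (Pi.single σ 1) = 0 := fun σ => by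
    obtain ⟨c, hc⟩ := Submodule.mem_span_singleton.mp
      (mem_cobs_of_cob_eq_zero hε hdeg hexp hd (hPc (Pi.single σ 1)))
    have h2 : ∀ z : ZMod 2, z = 0 ∨ z = 1 := by decide
    rcases h2 c with rfl | rfl
    · rw [← hc, zero_smul]
    · exfalso
      have := hP σ
      rw [← hc, one_smul, size_one] at this
      omega
  have hP0 : P = 0 := linear_ext fun σ => by rw [hz σ]; rfl
  have h1 := hPid (fun _ => 1) cob_zero_one
  rw [hP0, LinearMap.zero_apply] at h1
  obtain ⟨σ⟩ : Nonempty ↥(faces F 0) := Fintype.card_pos_iff.mp (by omega)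
  exact zero_ne_one (congrFun h1 σ)

/-- the bound constant -/
def bnd (E C : ℕ) : ℕ → ℕ
  | 0 => C
  | j + 1 => C * (1 + E * bnd E C j)

theorem top_betti_linear : ∀ (d D : ℕ), 0 < d → ∀ ε : ℝ, 0 < ε → ∃ c : ℝ, 0 < c ∧
    ∀ (n : ℕ) (F : Finset (Finset (Fin n))), IsPure d F → DegreeLE D F → IsCobExpander d F ε →
      c * n - 1 ≤ (topBetti d F : ℝ) := by
  intro d D hd ε hε
  set C := ⌈(D : ℝ) * 2 ^ (d + 1) / ε⌉₊ with hC
  set E := D * 2 ^ (d + 1) with hE
  set A : ℕ := 1 + E * bnd E C (d - 1) with hA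
  refine ⟨1 / (A : ℝ), by positivity, fun n F hF hdeg hexp => ?_⟩
  set k := topBetti d F
  have key : ∀ m, m < d → Homotopy F (d - 1 - m) (bnd E C m * (1 + k)) := by
    intro m
    induction m with
    | zero =>
      intro _
      obtain ⟨j, rfl⟩ : ∃ j, d = j + 1 := ⟨d - 1, by omega⟩
      exact homotopy_top hε hdeg hexp (Nat.le_ceil _)
    | succ m ih =>
      intro hm
      have h := ih (by omega)
      rw [show d - 1 - m = d - 1 - (m + 1) + 1 by omega] at h
      obtain ⟨K, hK, hKc⟩ := homotopy_step hε hdeg hF hexp (C := C) (Nat.le_ceil _) (by omega) h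
      refine ⟨K, fun τ => (hK τ).trans ?_, hKc⟩
      show C * (1 + E * (bnd E C m * (1 + k))) ≤ C * (1 + E * bnd E C m) * (1 + k)
      nlinarith [Nat.zero_le (C * k)]
  have h0 := key (d - 1) (by omega)
  rw [Nat.sub_self] at h0
  have h1 := vertices_le hε hdeg hF hexp hd h0
  have h2 : n ≤ A * (1 + k) := by
    rw [hA]
    calc n ≤ 1 + E * (bnd E C (d - 1) * (1 + k)) := h1
      _ ≤ (1 + E * bnd E C (d - 1)) * (1 + k) := by nlinarith [Nat.zero_le k]
  have h3 : (n : ℝ) ≤ A * (1 + k) := by exact_mod_cast h2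
  have hA0 : (0 : ℝ) < A := by positivity
  rw [sub_le_iff_le_add, one_div_mul_eq_div, div_le_iff₀ hA0]
  linarith

end Vale.Agent.P067
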